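import Vale.Agent.P146.H767.Glue

/-!
# P146: [START] (4): the difference of a value function and its later value

`lw w` = the logarithm of the partition function with the weights `exp (w x)`; `Mx h` = the largest
absolute value of the energy of the increment `h`.
-/

open MeasureTheory ProbabilityTheory

namespace Vale.Agent.P146.H673

open Vale.Agent.P157.Lv Vale.Agent.P146.H425 Vale.Agent.P146.H332 Vale.Agent.P146.H325

set_option linter.unusedSectionVars false

variable {ι : Type} [Fintype ι] [DecidableEq ι] {X : Type} [Fintype X] [Nonempty X]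
variable (k : ℝ) (S : ι → X → ℝ)

/-- the logarithm of the partition function with the weights `exp (w x)` -/
noncomputable def lw (w : X → ℝ) (u : ι → ℝ) : ℝ :=
  Real.log (∑ x, ez k S u x * Real.exp (w x))

/-- the largest absolute value of the energy of the increment `h` -/
noncomputable def Mx (h : ι → ℝ) : ℝ :=
  Finset.univ.sup' Finset.univ_nonempty fun x => |dE k S h x|

lemma lw_zero (u : ι → ℝ) : lw k S (fun _ => 0) u = lz k S u := by
  unfold lw lz Zp
  simp

lemma le_Mx (h : ι → ℝ) (x : X) : |dE k S h x| ≤ Mx k S h :=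
  Finset.le_sup' (fun x => |dE k S h x|) (Finset.mem_univ x)

lemma Mx_le {h : ι → ℝ} {c : ℝ} (hc : ∀ x, |dE k S h x| ≤ c) : Mx k S h ≤ c :=
  Finset.sup'_le _ _ fun x _ => hc x

lemma Mx_nonneg (h : ι → ℝ) : 0 ≤ Mx k S h :=
  (abs_nonneg _).trans (le_Mx k S h (Classical.arbitrary X))

lemma dE_add (h h' : ι → ℝ) (x : X) : dE k S (h + h') x = dE k S h x + dE k S h' x := by
  unfold dE
  simp only [Pi.add_apply, mul_add, Finset.sum_add_distrib]

lemma dE_smul (c : ℝ) (h : ι → ℝ) (x : X) : dE k S (c • h) x = c * dE k S h x := by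
  unfold dE
  simp only [Pi.smul_apply, smul_eq_mul]
  have h1 : ∑ e, S e x * (c * h e) = c * ∑ e, S e x * h e := by
    rw [Finset.mul_sum]
    exact Finset.sum_congr rfl fun e _ => by ring
  rw [h1]
  ring

lemma Mx_add (h h' : ι → ℝ) : Mx k S (h + h') ≤ Mx k S h + Mx k S h' :=
  Mx_le k S fun x => by
    rw [dE_add]
    exact (abs_add_le _ _).trans (add_le_add (le_Mx k S h x) (le_Mx k S h' x))

lemma Mx_smul (c : ℝ) (h : ι → ℝ) : Mx k S (c • h) ≤ |c| * Mx k S h :=
  Mx_le k S fun x => by
    rw [dE_smul, abs_mul]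
    exact mul_le_mul_of_nonneg_left (le_Mx k S h x) (abs_nonneg c)

lemma Mx_le_norm (h : ι → ℝ) : Mx k S h ≤ Kb k S * ‖h‖ := Mx_le k S fun x => abs_dE k S h x

lemma Mx_sub (h h' : ι → ℝ) : Mx k S (h - h') ≤ Mx k S h + Mx k S h' := by
  rw [sub_eq_add_neg]
  refine (Mx_add k S h (-h')).trans ?_
  have := Mx_smul k S (-1) h'
  simp only [neg_smul, one_smul, abs_neg, abs_one, one_mul] at this
  linarith

lemma lip_Mx : Lip (Mx k S) := by
  refine ⟨Kb k S, Kb_nonneg k S, fun y y' => ?_⟩
  have h1 : ∀ y y' : ι → ℝ, Mx k S y - Mx k S y' ≤ Kb k S * ‖y - y'‖ := by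
    intro y y'
    have h2 := Mx_add k S (y - y') y'
    rw [sub_add_cancel] at h2
    have h3 := Mx_le_norm k S (y - y')
    linarith
  rw [abs_le]
  constructor
  · have := h1 y' y
    rw [norm_sub_rev] at this
    linarith
  · exact h1 y y'

lemma ez_add (u h : ι → ℝ) (x : X) : ez k S (u + h) x = ez k S u x * Real.exp (dE k S h x) := by
  unfold ez dE
  rw [← Real.exp_add]
  congr 1
  simp only [Pi.add_apply, mul_add, Finset.sum_add_distrib]

lemma sw_pos (w : X → ℝ) (u : ι → ℝ) : 0 < ∑ x, ez k S u x * Real.exp (w x) :=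
  Finset.sum_pos (fun x _ => mul_pos (ez_pos k S u x) (Real.exp_pos _)) Finset.univ_nonempty

lemma lw_add_le (w : X → ℝ) (u h : ι → ℝ) : lw k S w (u + h) ≤ lw k S w u + Mx k S h := by
  unfold lw
  have h1 : ∑ x, ez k S (u + h) x * Real.exp (w x) ≤
      Real.exp (Mx k S h) * ∑ x, ez k S u x * Real.exp (w x) := by
    rw [Finset.mul_sum]
    refine Finset.sum_le_sum fun x _ => ?_
    rw [ez_add]
    have h2 : Real.exp (dE k S h x) ≤ Real.exp (Mx k S h) :=
      Real.exp_le_exp.2 ((le_abs_self _).trans (le_Mx k S h x))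
    calc ez k S u x * Real.exp (dE k S h x) * Real.exp (w x)
        = Real.exp (dE k S h x) * (ez k S u x * Real.exp (w x)) := by ring
      _ ≤ _ := mul_le_mul_of_nonneg_right h2
        (mul_pos (ez_pos k S u x) (Real.exp_pos _)).le
  refine (Real.log_le_log (sw_pos k S w _) h1).trans (le_of_eq ?_)
  rw [Real.log_mul (Real.exp_pos _).ne' (sw_pos k S w u).ne', Real.log_exp, add_comm]

lemma abs_lw_add (w : X → ℝ) (u h : ι → ℝ) : |lw k S w (u + h) - lw k S w u| ≤ Mx k S h := by
  rw [abs_le]
  constructor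
  · have h1 := lw_add_le k S w (u + h) (-h)
    rw [add_neg_cancel_right] at h1
    have h2 := Mx_smul k S (-1) h
    simp only [neg_smul, one_smul, abs_neg, abs_one, one_mul] at h2
    linarith
  · have := lw_add_le k S w u h
    linarith

lemma lipB_lw (w : X → ℝ) : LipB (lw k S w) (Kb k S) := fun u h =>
  (abs_lw_add k S w u h).trans (Mx_le_norm k S h)

/-- the exponential moment of the maximal energy -/
noncomputable def Am : ℝ := Real.log (∫ z, Real.exp (Mx k S z) ∂(gI ι))

lemma eg_exp_Mx (c : ℝ) : EG fun z => Real.exp (c * Mx k S z) := (lip_Mx k S).exp_eg c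

lemma int_exp_Mx_pos : 0 < ∫ z, Real.exp (Mx k S z) ∂(gI ι) := by
  have := (eg_exp_Mx k S 1).integrable
  simp only [one_mul] at this
  exact integral_exp_pos this

lemma exp_Am : Real.exp (Am k S) = ∫ z, Real.exp (Mx k S z) ∂(gI ι) := Real.exp_log
  (int_exp_Mx_pos k S)

/-- smaller exponents -/
lemma exp_small {l : ℝ} (h0 : 0 ≤ l) (h1 : l ≤ 1) :
    ∫ z, Real.exp (l * Mx k S z) ∂(gI ι) ≤ Real.exp (l * Am k S) := by
  have i1 : Integrable (fun z => Real.exp (Mx k S z)) (gI ι) := by
    have := (eg_exp_Mx k S 1).integrable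
    simpa only [one_mul] using this
  have hA := exp_Am k S
  have h2 : ∀ z : ι → ℝ, Real.exp (l * Mx k S z) ≤
      Real.exp (l * Am k S) * ((1 - l) + l * (Real.exp (-Am k S) * Real.exp (Mx k S z))) := by
    intro z
    have h3 := (convexOn_exp).2 (Set.mem_univ (0 : ℝ)) (Set.mem_univ (Mx k S z - Am k S))
      (sub_nonneg.2 h1) h0 (by ring)
    simp only [smul_eq_mul, mul_zero, zero_add, Real.exp_zero, mul_one] at h3
    have h4 : Real.exp (l * Mx k S z) = Real.exp (l * Am k S) *
        Real.exp (l * (Mx k S z - Am k S)) := by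
      rw [← Real.exp_add]
      congr 1
      ring
    rw [h4]
    refine mul_le_mul_of_nonneg_left (h3.trans (le_of_eq ?_)) (Real.exp_pos _).le
    rw [← Real.exp_add]
    congr 3
    ring
  have i2 : Integrable (fun z => Real.exp (l * Am k S) * ((1 - l) + l * (Real.exp (-Am k S) *
      Real.exp (Mx k S z)))) (gI ι) :=
    ((integrable_const _).add ((i1.const_mul _).const_mul _)).const_mul _
  refine (integral_mono (eg_exp_Mx k S l).integrable i2 h2).trans (le_of_eq ?_)
  rw [integral_const_mul, integral_add (integrable_const _) ((i1.const_mul _).const_mul _),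
    integral_const_mul, integral_const_mul, ← hA, ← Real.exp_add, neg_add_cancel, Real.exp_zero]
  simp

/-- Jensen -/
lemma int_Mx_le : ∫ z, Mx k S z ∂(gI ι) ≤ Am k S := by
  have e1 : EG fun z => Real.exp (Mx k S z) := by
    have := eg_exp_Mx k S 1
    simpa only [one_mul] using this
  have h1 := jensen_tilt (q := fun _ : ι → ℝ => (1 : ℝ)) (t := Mx k S) (EG.const 1)
    (fun _ => zero_le_one) (by simp) (lip_Mx k S).eg (by simpa only [one_mul] using e1)
  simp only [one_mul, integral_const, probReal_univ, smul_eq_mul, div_one] at h1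
  rw [← exp_Am] at h1
  exact Real.exp_le_exp.1 h1

/-- the value function against its later value, upper bound -/
lemma W_le (w : X → ℝ) {x b : ℝ} (hx : 0 < x) (hb : 0 ≤ b) (hxb : x * b ≤ 1) (y z : ι → ℝ) :
    W x b (lw k S w) y ≤ lw k S w (y + b • z) + b * (Mx k S z + Am k S) := by
  have hK := Kb_nonneg k S
  have hL := lipB_lw k S w
  have h1 : ∀ z' : ι → ℝ, Real.exp (x * lw k S w (y + b • z')) ≤
      Real.exp (x * (lw k S w (y + b • z) + b * Mx k S z)) * Real.exp (x * b * Mx k S z') := by
    intro z'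
    rw [← Real.exp_add]
    refine Real.exp_le_exp.2 ?_
    have h2 := lw_add_le k S w (y + b • z) (b • (z' - z))
    have e : y + b • z + b • (z' - z) = y + b • z' := by
      rw [smul_sub]; abel
    rw [e] at h2
    have h3 := Mx_smul k S b (z' - z)
    rw [abs_of_nonneg hb] at h3
    have h4 := mul_le_mul_of_nonneg_left (Mx_sub k S z' z) hb
    have h5 : lw k S w (y + b • z') ≤ lw k S w (y + b • z) + b * Mx k S z + b * Mx k S z' := by
      linarith
    nlinarith [mul_le_mul_of_nonneg_left h5 hx.le]
  have h2 : ∫ z', Real.exp (x * lw k S w (y + b • z')) ∂(gI ι) ≤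
      Real.exp (x * (lw k S w (y + b • z) + b * Mx k S z)) * Real.exp (x * b * Am k S) := by
    refine (integral_mono (hL.int_exp hK y b x) ((eg_exp_Mx k S (x * b)).integrable.const_mul _)
      h1).trans ?_
    rw [integral_const_mul]
    exact mul_le_mul_of_nonneg_left (exp_small k S (by positivity) hxb) (Real.exp_pos _).le
  have h3 := Real.log_le_log (hL.pos hK y b x) h2
  rw [← Real.exp_add, Real.log_exp] at h3
  unfold W
  rw [one_div, inv_mul_eq_div, div_le_iff₀ hx]
  nlinarith

/-- the value function against its later value, lower bound -/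
lemma le_W (w : X → ℝ) {x b : ℝ} (hx : 0 < x) (hb : 0 ≤ b) (y z : ι → ℝ) :
    lw k S w (y + b • z) - b * (Mx k S z + Am k S) ≤ W x b (lw k S w) y := by
  have hK := Kb_nonneg k S
  have hL := lipB_lw k S w
  have e1 : EG fun z' => x * lw k S w (y + b • z') := ((hL.lip_smul hK y b).eg).const_mul x
  have h1 := jensen_tilt (q := fun _ : ι → ℝ => (1 : ℝ))
    (t := fun z' => x * lw k S w (y + b • z')) (EG.const 1)
    (fun _ => zero_le_one) (by simp) e1 (by simpa only [one_mul] using hL.eg_exp hK y b x)
  simp only [one_mul, integral_const, probReal_univ, smul_eq_mul, div_one] at h1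
  have h2 := Real.log_le_log (Real.exp_pos _) h1
  rw [Real.log_exp, integral_const_mul] at h2
  have h3 : lw k S w (y + b • z) - b * (Mx k S z + Am k S) ≤
      ∫ z', lw k S w (y + b • z') ∂(gI ι) := by
    have h4 : ∀ z' : ι → ℝ, lw k S w (y + b • z) - b * Mx k S z - b * Mx k S z' ≤
        lw k S w (y + b • z') := by
      intro z'
      have h2 := (abs_le.1 (abs_lw_add k S w (y + b • z) (b • (z' - z)))).1
      have e : y + b • z + b • (z' - z) = y + b • z' := by
        rw [smul_sub]; abel
      rw [e] at h2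
      have h3 := Mx_smul k S b (z' - z)
      rw [abs_of_nonneg hb] at h3
      have h4 := mul_le_mul_of_nonneg_left (Mx_sub k S z' z) hb
      linarith
    have i3 : Integrable (fun z' => lw k S w (y + b • z) - b * Mx k S z - b * Mx k S z')
        (gI ι) := (integrable_const _).sub ((lip_Mx k S).eg.integrable.const_mul b)
    have h5 := integral_mono i3 (hL.lip_smul hK y b).eg.integrable h4
    rw [integral_sub (integrable_const _) ((lip_Mx k S).eg.integrable.const_mul b),
      integral_const_mul] at h5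
    simp only [integral_const, probReal_univ, smul_eq_mul, one_mul] at h5
    have h6 := mul_le_mul_of_nonneg_left (int_Mx_le k S) hb
    linarith
  refine h3.trans ?_
  unfold W
  rw [one_div, inv_mul_eq_div, le_div_iff₀ hx, mul_comm]
  exact h2

/-- the exponential moment of the maximal energy -/
theorem Am_le {N : ℝ} (hN : ∀ x, ∑ e, S e x ^ 2 ≤ N) :
    Am k S ≤ Real.log (2 * Fintype.card X) + k ^ 2 * N / 2 := by
  have hc : (0 : ℝ) < Fintype.card X := Nat.cast_pos.2 Fintype.card_pos
  have h1 : ∀ z : ι → ℝ, Real.exp (Mx k S z) ≤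
      ∑ x, (Real.exp (∑ e, (k * S e x) * z e) + Real.exp (∑ e, (-(k * S e x)) * z e)) := by
    intro z
    obtain ⟨x, -, hx⟩ := Finset.exists_mem_eq_sup' Finset.univ_nonempty
      (fun x : X => |dE k S z x|)
    have hd : dE k S z x = ∑ e, (k * S e x) * z e := by
      unfold dE
      rw [Finset.mul_sum]
      exact Finset.sum_congr rfl fun e _ => by ring
    have hd' : -dE k S z x = ∑ e, (-(k * S e x)) * z e := by
      rw [hd, ← Finset.sum_neg_distrib]
      exact Finset.sum_congr rfl fun e _ => by ring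
    have h2 : Real.exp (Mx k S z) ≤ Real.exp (∑ e, (k * S e x) * z e) +
        Real.exp (∑ e, (-(k * S e x)) * z e) := by
      unfold Mx
      rw [hx, ← hd, ← hd']
      rcases abs_cases (dE k S z x) with ⟨h, -⟩ | ⟨h, -⟩ <;> rw [h]
      · linarith [Real.exp_pos (-dE k S z x)]
      · linarith [Real.exp_pos (dE k S z x)]
    refine h2.trans ?_
    exact Finset.single_le_sum (f := fun x => Real.exp (∑ e, (k * S e x) * z e) +
      Real.exp (∑ e, (-(k * S e x)) * z e)) (fun x _ => by positivity) (Finset.mem_univ x)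
  have hl : ∀ a : ι → ℝ, Integrable (fun z : ι → ℝ => Real.exp (∑ e, a e * z e)) (gI ι) ∧
      ∫ z : ι → ℝ, Real.exp (∑ e, a e * z e) ∂(gI ι) = Real.exp ((∑ e, a e ^ 2) / 2) := by
    intro a
    constructor
    · simp_rw [Real.exp_sum]
      exact Integrable.fintype_prod (f := fun e t => Real.exp (a e * t))
        fun e => integrable_exp_mul_gaussianReal (a e)
    · simp_rw [Real.exp_sum]
      rw [integral_fintype_prod_eq_prod (𝕜 := ℝ) (f := fun e t => Real.exp (a e * t)),
        Finset.sum_div, Real.exp_sum]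
      exact Finset.prod_congr rfl fun e _ => integral_exp_affine (a e)
  have h2 : ∫ z, Real.exp (Mx k S z) ∂(gI ι) ≤ 2 * Fintype.card X * Real.exp (k ^ 2 * N / 2) := by
    have e1 : EG fun z => Real.exp (Mx k S z) := by
      have := eg_exp_Mx k S 1
      simpa only [one_mul] using this
    refine (integral_mono e1.integrable (integrable_finsetSum _ fun x _ =>
      (hl _).1.add (hl _).1) h1).trans ?_
    rw [integral_finsetSum _ fun x _ => (hl _).1.add (hl _).1]
    have h3 : ∀ x ∈ (Finset.univ : Finset X), ∫ z : ι → ℝ, (Real.exp (∑ e, (k * S e x) * z e) +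
        Real.exp (∑ e, (-(k * S e x)) * z e)) ∂(gI ι) ≤ 2 * Real.exp (k ^ 2 * N / 2) := by
      intro x _
      rw [integral_add (hl _).1 (hl _).1, (hl _).2, (hl _).2]
      have h4 : ∑ e, (k * S e x) ^ 2 ≤ k ^ 2 * N := by
        have : ∑ e, (k * S e x) ^ 2 = k ^ 2 * ∑ e, S e x ^ 2 := by
          rw [Finset.mul_sum]
          exact Finset.sum_congr rfl fun e _ => by ring
        rw [this]
        exact mul_le_mul_of_nonneg_left (hN x) (sq_nonneg k)
      have h5 : ∑ e, (-(k * S e x)) ^ 2 ≤ k ^ 2 * N := by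
        simpa only [neg_sq] using h4
      have h6 := Real.exp_le_exp.2 (div_le_div_of_nonneg_right h4 (zero_le_two (α := ℝ)))
      have h7 := Real.exp_le_exp.2 (div_le_div_of_nonneg_right h5 (zero_le_two (α := ℝ)))
      linarith
    refine (Finset.sum_le_sum h3).trans (le_of_eq ?_)
    rw [Finset.sum_const, Finset.card_univ, nsmul_eq_mul]
    ring
  unfold Am
  refine (Real.log_le_log (int_exp_Mx_pos k S) h2).trans (le_of_eq ?_)
  rw [Real.log_mul (by positivity) (Real.exp_pos _).ne', Real.log_exp]

/-- **[START] (4), pointwise.** -/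
theorem abs_W_sub (w : X → ℝ) {x b : ℝ} (hx : 0 < x) (hb : 0 ≤ b) (hxb : x * b ≤ 1)
    (y z : ι → ℝ) :
    |(W x b (lz k S) y - W x b (lw k S w) y) - (lz k S (y + b • z) - lw k S w (y + b • z))| ≤
      2 * b * (Mx k S z + Am k S) := by
  have e0 : lw k S (fun _ => 0) = lz k S := funext (lw_zero k S)
  have h1 := W_le k S (fun _ => 0) hx hb hxb y z
  have h2 := le_W k S (fun _ => 0) hx hb y z
  have h3 := W_le k S w hx hb hxb y z
  have h4 := le_W k S w hx hb y z
  rw [e0] at h1 h2
  rw [abs_le]
  constructor <;> linarith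

end Vale.Agent.P146.H673
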