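import Vale.Agent.P146.H673.StA

/-!
# P146: [START] (4), (5): entropy inequality and the bounds under the tilted law

`Exx` = the mean of a function of the position `y` before the window, the final position `g` and a
configuration, under the law tilted by `exp (x F)`.
-/

open MeasureTheory ProbabilityTheory

namespace Vale.Agent.P146.H673

open Vale.Agent.P157.Lv Vale.Agent.P146.H425 Vale.Agent.P146.H332 Vale.Agent.P146.H325

set_option linter.unusedSectionVars false

section gen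

variable {κ : Type} [Fintype κ] {F M : (κ → ℝ) → ℝ}

/-- The entropy inequality. -/
theorem ent (hF : Lip F) (hM : Lip M) (x : ℝ) :
    (∫ z, Real.exp (x * F z) * M z ∂(gI κ)) / ∫ z, Real.exp (x * F z) ∂(gI κ) ≤
      KL F x + Real.log (∫ z, Real.exp (M z) ∂(gI κ)) := by
  set A := ∫ z, Real.exp (x * F z) ∂(gI κ) with hA
  have pA : 0 < A := integral_exp_pos (hF.exp_eg x).integrable
  have e1 : ∀ z, Real.exp (x * F z) * Real.exp (M z - x * F z) = Real.exp (M z) := fun z => by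
    rw [← Real.exp_add]
    congr 1
    ring
  have eM : EG fun z => Real.exp (M z) := by
    have := hM.exp_eg 1
    simpa only [one_mul] using this
  have h1 := jensen_tilt (q := fun z => Real.exp (x * F z)) (t := fun z => M z - x * F z)
    (hF.exp_eg x) (fun z => (Real.exp_pos _).le) pA (hM.eg.sub (hF.eg.const_mul x))
    (by simp_rw [e1]; exact eM)
  simp_rw [e1] at h1
  have i1 := ((hF.exp_eg x).mul hM.eg).integrable
  have i2 := ((hF.exp_eg x).mul hF.eg).integrable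
  have e2 : ∫ z, Real.exp (x * F z) * (M z - x * F z) ∂(gI κ) =
      ∫ z, Real.exp (x * F z) * M z ∂(gI κ) - x * ∫ z, Real.exp (x * F z) * F z ∂(gI κ) := by
    rw [← integral_const_mul, ← integral_sub i1 (i2.const_mul x)]
    refine integral_congr_ae (Filter.Eventually.of_forall fun z => ?_)
    simp only
    ring
  rw [← hA, e2] at h1
  have h2 := Real.log_le_log (mul_pos pA (Real.exp_pos _)) h1
  rw [Real.log_mul pA.ne' (Real.exp_pos _).ne', Real.log_exp, sub_div] at h2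
  have e3 : KL F x = x * ((∫ z, Real.exp (x * F z) * F z ∂(gI κ)) / A) - Real.log A := rfl
  rw [e3]
  have e4 : x * (∫ z, Real.exp (x * F z) * F z ∂(gI κ)) / A =
      x * ((∫ z, Real.exp (x * F z) * F z ∂(gI κ)) / A) := by ring
  rw [e4] at h2
  linarith

/-- The relative entropy by the Laplace transform. -/
theorem KL_le_two (hF : Lip F) (x : ℝ) :
    KL F x ≤ Real.log (∫ z, Real.exp (2 * x * F z) ∂(gI κ)) -
      2 * Real.log (∫ z, Real.exp (x * F z) ∂(gI κ)) := by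
  set A := ∫ z, Real.exp (x * F z) ∂(gI κ) with hA
  have pA : 0 < A := integral_exp_pos (hF.exp_eg x).integrable
  have e1 : ∀ z, Real.exp (x * F z) * Real.exp (x * F z) = Real.exp (2 * x * F z) := fun z => by
    rw [← Real.exp_add]
    congr 1
    ring
  have h1 := jensen_tilt (q := fun z => Real.exp (x * F z)) (t := fun z => x * F z)
    (hF.exp_eg x) (fun z => (Real.exp_pos _).le) pA (hF.eg.const_mul x)
    (by simp_rw [e1]; exact hF.exp_eg (2 * x))
  simp_rw [e1] at h1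
  have e2 : ∫ z, Real.exp (x * F z) * (x * F z) ∂(gI κ) =
      x * ∫ z, Real.exp (x * F z) * F z ∂(gI κ) := by
    rw [← integral_const_mul]
    refine integral_congr_ae (Filter.Eventually.of_forall fun z => ?_)
    simp only
    ring
  rw [← hA, e2] at h1
  have h2 := Real.log_le_log (mul_pos pA (Real.exp_pos _)) h1
  rw [Real.log_mul pA.ne' (Real.exp_pos _).ne', Real.log_exp] at h2
  have e3 : KL F x = x * ((∫ z, Real.exp (x * F z) * F z ∂(gI κ)) / A) - Real.log A := rfl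
  rw [e3]
  have e4 : x * (∫ z, Real.exp (x * F z) * F z ∂(gI κ)) / A =
      x * ((∫ z, Real.exp (x * F z) * F z ∂(gI κ)) / A) := by ring
  rw [e4] at h2
  linarith

lemma KL_nonneg (hF : Lip F) (x : ℝ) : 0 ≤ KL F x := by
  have h := ent hF (M := fun _ => 0) ⟨0, le_rfl, fun y y' => by simp⟩ x
  simpa using h

end gen

variable {ι : Type} [Fintype ι] [DecidableEq ι] {X : Type} [Fintype X] [Nonempty X]
variable (k : ℝ) (S : ι → X → ℝ)

/-- the first block -/
def v0 (v : ι ⊕ ι → ℝ) : ι → ℝ := fun e => v (Sum.inl e)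
/-- the second block -/
def v1 (v : ι ⊕ ι → ℝ) : ι → ℝ := fun e => v (Sum.inr e)
/-- the final position -/
noncomputable def gv (a b : ℝ) (v : ι ⊕ ι → ℝ) : ι → ℝ := a • v0 v + b • v1 v

/-- `F - F^θ` -/
noncomputable def Yv (ψ : X → X → ℝ) (θ : ℝ) (s : X) (g : ι → ℝ) : ℝ :=
  lz k S g - lw k S (fun s' => -θ * ψ s s') g

/-- the difference of the value functions -/
noncomputable def Y1 (ψ : X → X → ℝ) (x b θ : ℝ) (s : X) (y : ι → ℝ) : ℝ :=
  W x b (lz k S) y - W x b (lw k S (fun s' => -θ * ψ s s')) y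

/-- the mean under the law tilted by `exp (x F)`, functions of the two blocks -/
noncomputable def Ev (x a b : ℝ) (G : (ι ⊕ ι → ℝ) → X → ℝ) : ℝ :=
  (∫ v : ι ⊕ ι → ℝ, Real.exp (x * lz k S (gv a b v)) *
    H325.av k S (G v) (gv a b v) ∂(gI (ι ⊕ ι))) / ∫ z, Real.exp (x * lz k S z) ∂(gI ι)

/-- the mean under the law tilted by `exp (x F)` -/
noncomputable def Exx (x a b : ℝ) (G : (ι → ℝ) → (ι → ℝ) → X → ℝ) : ℝ :=
  (∫ v : ι ⊕ ι → ℝ, Real.exp (x * lz k S (gv a b v)) *
    H325.av k S (G (a • v0 v) (gv a b v)) (gv a b v) ∂(gI (ι ⊕ ι))) /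
    ∫ z, Real.exp (x * lz k S z) ∂(gI ι)

/-- the mass of the configurations where `ψ` vanishes -/
noncomputable def p2 (ψ : X → X → ℝ) (s : X) (g : ι → ℝ) : ℝ :=
  H325.av k S (fun s' => 1 - ψ s s') g

omit [DecidableEq ι] in
lemma norm_v0 (v : ι ⊕ ι → ℝ) : ‖v0 v‖ ≤ ‖v‖ :=
  (pi_norm_le_iff_of_nonneg (norm_nonneg _)).2 fun _ => norm_le_pi_norm v _
omit [DecidableEq ι] in
lemma norm_v1 (v : ι ⊕ ι → ℝ) : ‖v1 v‖ ≤ ‖v‖ :=
  (pi_norm_le_iff_of_nonneg (norm_nonneg _)).2 fun _ => norm_le_pi_norm v _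

omit [Fintype ι] [DecidableEq ι] in
lemma meas_v0 : Measurable (v0 (ι := ι)) := by unfold v0; fun_prop
omit [Fintype ι] [DecidableEq ι] in
lemma meas_v1 : Measurable (v1 (ι := ι)) := by unfold v1; fun_prop
omit [Fintype ι] [DecidableEq ι] in
lemma meas_gv (a b : ℝ) : Measurable (gv (ι := ι) a b) := by unfold gv v0 v1; fun_prop

omit [DecidableEq ι] in
lemma norm_gv (a b : ℝ) (v : ι ⊕ ι → ℝ) : ‖gv a b v‖ ≤ (|a| + |b|) * ‖v‖ := by
  unfold gv
  refine (norm_add_le _ _).trans ?_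
  rw [norm_smul, norm_smul, Real.norm_eq_abs, Real.norm_eq_abs, add_mul]
  exact add_le_add (mul_le_mul_of_nonneg_left (norm_v0 v) (abs_nonneg a))
    (mul_le_mul_of_nonneg_left (norm_v1 v) (abs_nonneg b))

omit [Fintype ι] [DecidableEq ι] in
lemma gv_sub (a b : ℝ) (v w : ι ⊕ ι → ℝ) : gv a b v - gv a b w = gv a b (v - w) := by
  funext e
  simp only [gv, v0, v1, Pi.sub_apply, Pi.add_apply, Pi.smul_apply, smul_eq_mul]
  ring

omit [DecidableEq ι] in
lemma EG.gv {f : (ι → ℝ) → ℝ} (hf : EG f) (a b : ℝ) : EG fun v => f (gv a b v) :=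
  R1.eg_comp hf (meas_gv a b) (by positivity) (norm_gv a b)

omit [DecidableEq ι] in
lemma EG.v0 {f : (ι → ℝ) → ℝ} (hf : EG f) : EG fun v : ι ⊕ ι → ℝ => f (v0 v) :=
  R1.eg_comp hf meas_v0 zero_le_one fun v => by rw [one_mul]; exact norm_v0 v

omit [DecidableEq ι] in
lemma EG.v1 {f : (ι → ℝ) → ℝ} (hf : EG f) : EG fun v : ι ⊕ ι → ℝ => f (v1 v) :=
  R1.eg_comp hf meas_v1 zero_le_one fun v => by rw [one_mul]; exact norm_v1 v

omit [DecidableEq ι] in
/-- rotation invariance -/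
lemma int_gv {f : (ι → ℝ) → ℝ} (hf : EG f) {a b : ℝ} (hab : a ^ 2 + b ^ 2 = 1) :
    ∫ v, f (gv a b v) ∂(gI (ι ⊕ ι)) = ∫ z, f z ∂(gI ι) := by
  rw [R1.int_sum (EG.gv hf a b)]
  have h1 := gI_rot hf (a := a) (b := b) (c := 1) (by rw [hab]; norm_num) 0
  simp only [zero_add, one_smul] at h1
  rw [← h1]
  rfl

omit [DecidableEq ι] in
lemma int_v1 {f : (ι → ℝ) → ℝ} (hf : EG f) :
    ∫ v : ι ⊕ ι → ℝ, f (v1 v) ∂(gI (ι ⊕ ι)) = ∫ z, f z ∂(gI ι) := by
  rw [R1.int_sum (EG.v1 hf)]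
  have e : ∀ w1 w2 : ι → ℝ, v1 (Sum.elim w1 w2 : ι ⊕ ι → ℝ) = w2 := fun _ _ => rfl
  simp_rw [e]
  simp

lemma lip_lz : Lip (lz k S) := (c11_lz k S).lip.lip (c11_lz k S).B0

lemma lip_lz_gv (a b : ℝ) : Lip fun v => lz k S (gv a b v) :=
  R1.lip_b (lip_lz k S) (c := |a| + |b|) (by positivity) fun w w' => by
    rw [gv_sub]; exact norm_gv a b (w - w')

lemma lip_Mx_v1 : Lip fun v : ι ⊕ ι → ℝ => Mx k S (v1 v) :=
  R1.lip_b (lip_Mx k S) (c := 1) zero_le_one fun w w' => by
    rw [one_mul]; exact norm_v1 (w - w')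

lemma KL_gv {a b : ℝ} (hab : a ^ 2 + b ^ 2 = 1) (x : ℝ) :
    KL (fun v => lz k S (gv a b v)) x = KL (lz k S) x := by
  unfold KL
  rw [int_gv (f := fun z => Real.exp (x * lz k S z)) ((lip_lz k S).exp_eg x) hab,
    int_gv (f := fun z => Real.exp (x * lz k S z) * lz k S z)
      (((lip_lz k S).exp_eg x).mul (lip_lz k S).eg) hab]

/-- **The mean of the maximal energy of the increment under the tilted law.** -/
theorem mean_Mx {a b : ℝ} (hab : a ^ 2 + b ^ 2 = 1) (x : ℝ) :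
    (∫ v : ι ⊕ ι → ℝ, Real.exp (x * lz k S (gv a b v)) * Mx k S (v1 v) ∂(gI (ι ⊕ ι))) /
      ∫ z, Real.exp (x * lz k S z) ∂(gI ι) ≤ KL (lz k S) x + Am k S := by
  have h1 := ent (lip_lz_gv k S a b) (lip_Mx_v1 k S) x
  rw [KL_gv k S hab, int_gv (f := fun z => Real.exp (x * lz k S z)) ((lip_lz k S).exp_eg x) hab]
    at h1
  have e1 : EG fun z => Real.exp (Mx k S z) := by
    have := eg_exp_Mx k S 1
    simpa only [one_mul] using this
  rw [int_v1 (f := fun z => Real.exp (Mx k S z)) e1] at h1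
  exact h1

/-! ### Gibbs averages -/

lemma meas_ez (s : X) : Measurable fun u => ez k S u s := by
  unfold ez
  fun_prop

lemma meas_Zp : Measurable (Zp k S) := by
  unfold Zp
  exact Finset.measurable_sum _ fun s _ => meas_ez k S s

lemma gw_bd (u : ι → ℝ) (s : X) : 0 ≤ ez k S u s / Zp k S u ∧ ez k S u s / Zp k S u ≤ 1 := by
  have h1 := Zp_pos k S u
  have h2 := ez_pos k S u s
  refine ⟨by positivity, ?_⟩
  rw [div_le_one h1]
  exact Finset.single_le_sum (f := fun s => ez k S u s) (fun s _ => (ez_pos k S u s).le)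
    (Finset.mem_univ s)

lemma av_eq (h : X → ℝ) (u : ι → ℝ) : H325.av k S h u = ∑ s, ez k S u s / Zp k S u * h s := by
  unfold H325.av
  rw [Finset.sum_div]
  exact Finset.sum_congr rfl fun s _ => by ring

/-- growth of a Gibbs average -/
lemma eg_av {G : (ι ⊕ ι → ℝ) → X → ℝ} (hG : ∀ s, EG fun v => G v s) (a b : ℝ) :
    EG fun v => H325.av k S (G v) (gv a b v) := by
  have e : (fun v => H325.av k S (G v) (gv a b v)) =
      fun v => ∑ s, ez k S (gv a b v) s / Zp k S (gv a b v) * G v s :=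
    funext fun v => av_eq k S (G v) _
  rw [e]
  refine EG.sum _ fun s _ => EG.mul (EG.of_bdd (C := 1) ?_ fun v => ?_) (hG s)
  · exact ((meas_ez k S s).comp (meas_gv a b)).div ((meas_Zp k S).comp (meas_gv a b))
  · rw [abs_of_nonneg (gw_bd k S _ s).1]
    exact (gw_bd k S _ s).2

lemma eg_Ev {G : (ι ⊕ ι → ℝ) → X → ℝ} (hG : ∀ s, EG fun v => G v s) (x a b : ℝ) :
    EG fun v => Real.exp (x * lz k S (gv a b v)) * H325.av k S (G v) (gv a b v) :=
  ((lip_lz_gv k S a b).exp_eg x).mul (eg_av k S hG a b)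

lemma N_pos (x : ℝ) : 0 < ∫ z, Real.exp (x * lz k S z) ∂(gI ι) :=
  integral_exp_pos ((lip_lz k S).exp_eg x).integrable

lemma Ev_mono {G H : (ι ⊕ ι → ℝ) → X → ℝ} (hG : ∀ s, EG fun v => G v s)
    (hH : ∀ s, EG fun v => H v s) (x a b : ℝ) (h : ∀ v s, G v s ≤ H v s) :
    Ev k S x a b G ≤ Ev k S x a b H := by
  unfold Ev
  refine div_le_div_of_nonneg_right ?_ (N_pos k S x).le
  exact integral_mono (eg_Ev k S hG x a b).integrable (eg_Ev k S hH x a b).integrable fun v =>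
    mul_le_mul_of_nonneg_left (av_mono k S (h v) _) (Real.exp_pos _).le

lemma Ev_sub {G H : (ι ⊕ ι → ℝ) → X → ℝ} (hG : ∀ s, EG fun v => G v s)
    (hH : ∀ s, EG fun v => H v s) (x a b : ℝ) :
    Ev k S x a b (fun v s => G v s - H v s) = Ev k S x a b G - Ev k S x a b H := by
  unfold Ev
  rw [← sub_div, ← integral_sub (eg_Ev k S hG x a b).integrable (eg_Ev k S hH x a b).integrable]
  congr 1
  refine integral_congr_ae (Filter.Eventually.of_forall fun v => ?_)
  simp only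
  rw [av_sub]
  ring

lemma Ev_add {G H : (ι ⊕ ι → ℝ) → X → ℝ} (hG : ∀ s, EG fun v => G v s)
    (hH : ∀ s, EG fun v => H v s) (x a b : ℝ) :
    Ev k S x a b (fun v s => G v s + H v s) = Ev k S x a b G + Ev k S x a b H := by
  unfold Ev
  rw [← add_div, ← integral_add (eg_Ev k S hG x a b).integrable (eg_Ev k S hH x a b).integrable]
  congr 1
  refine integral_congr_ae (Filter.Eventually.of_forall fun v => ?_)
  simp only
  rw [av_add]
  ring

lemma Ev_const_mul (c : ℝ) (G : (ι ⊕ ι → ℝ) → X → ℝ) (x a b : ℝ) :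
    Ev k S x a b (fun v s => c * G v s) = c * Ev k S x a b G := by
  unfold Ev
  rw [← mul_div_assoc, ← integral_const_mul]
  congr 1
  refine integral_congr_ae (Filter.Eventually.of_forall fun v => ?_)
  simp only
  rw [av_mul]
  ring

lemma Ev_const (c : ℝ) {x a b : ℝ} (hab : a ^ 2 + b ^ 2 = 1) :
    Ev k S x a b (fun _ _ => c) = c := by
  unfold Ev
  simp_rw [av_const]
  rw [integral_mul_const, int_gv (f := fun z => Real.exp (x * lz k S z))
    ((lip_lz k S).exp_eg x) hab]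
  field_simp [(N_pos k S x).ne']

end Vale.Agent.P146.H673
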