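import Vale.Agent.P146.H673.StFin
import Vale.Agent.P146.H461.StCmp2
import Vale.Agent.P146.H260.Asm5
import Vale.Agent.P146.H260.XQ7U
import Vale.Agent.P146.H737.Fin

/-!
# P146: [START] at every `β > 1`, from the core inequality
-/

open MeasureTheory ProbabilityTheory Filter Topology

namespace Vale.Agent.P146.H673

open Vale.Agent.P157.Lv Vale.Agent.P146.H425 Vale.Agent.P146.H332 Vale.Agent.P146.H325
open Vale.Agent.P146.H605 Vale.Agent.P146.H522 Vale.Agent.P146.H260.Asm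

theorem start_of_core (hcore : H326.St.Core) {β : ℝ} (hβ : 1 < β) :
    ∃ c : ℝ, 0 < c ∧ ∀ a : ℝ, a < 1 / 16 → ∃ δ : ℝ, 0 < δ ∧ ∀ᶠ n : ℕ in atTop,
      ∀ X : ℝ, (n : ℝ) ^ (-a) ≤ X → X ≤ δ → ∀ T : ℝ, 0 ≤ T → T ≤ c * X ^ 10 →
        c * n ^ 2 * X ^ 5 ≤
          ∫ z, fr (AA (β / √n) X (1 - T) (√(1 - T) • z)) ∂(gI (Pair n)) ∧
        c * n * X ^ 5 ≤ H767.Qw n β X (1 - T) := by
  obtain ⟨Λ, -, h⟩ := final_g (θ := 1 / 16) (a := 2 / 3) (c := 1 / 3) (w := 9 / 16) (k := 2)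
    (D := 7) (by norm_num) (by norm_num) (by norm_num) (by norm_num) (by norm_num) (by norm_num)
    (by norm_num) (fun β hβ => H737.tmh1 hβ.le) (fun β hβ => H737.tm1 hβ.le) fun β hβ =>
      Vale.Agent.P146.H260.XQ7.lowD7 hβ
  obtain ⟨h0, p, k, D, -, -, h2, -⟩ := h β hβ
  exact start_of H461.cmp hcore (p := p) (by linarith) h0 (θ := 1 / 16) (by norm_num)
    (by norm_num) fun ε hε a ha => by
      obtain ⟨δ, hδ, h4⟩ := h2 ε hε a ha
      exact ⟨δ, hδ, h4.mono fun n hn => hn.1⟩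

end Vale.Agent.P146.H673
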