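import Vale.Agent.P146.H326.StDef

/-!
# P146: [START], bridge: the overlap matrix of one window and the law `pz`
-/

open MeasureTheory ProbabilityTheory

namespace Vale.Agent.P146.H673

open Vale.Agent.P157.Lv Vale.Agent.P146.H425 Vale.Agent.P146.H332 Vale.Agent.P146.H325
open Vale.Agent.P146.H605 Vale.Agent.P146.H522 Vale.Agent.P146.H326.St

set_option linter.unusedSectionVars false

variable {n : ℕ} (β : ℝ)

lemma sk_energy (g : Pair n → ℝ) (σ : Fin n → ℤˣ) :
    β / √n * ∑ e, SkS e σ * g e = β * hamiltonian n g σ := by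
  unfold hamiltonian SkS H325.sp
  have : ∑ p : Pair n, g p * ((σ p.1.1 : ℤ) : ℝ) * ((σ p.1.2 : ℤ) : ℝ) =
      ∑ e : Pair n, ((σ e.1.1 : ℤ) : ℝ) * ((σ e.1.2 : ℤ) : ℝ) * g e :=
    Finset.sum_congr rfl fun e _ => by ring
  rw [this]
  ring

lemma sk_ez (g : Pair n → ℝ) (σ : Fin n → ℤˣ) :
    ez (β / √n) SkS g σ = Real.exp (β * hamiltonian n g σ) := by
  unfold ez
  rw [sk_energy]

lemma sk_Zp (g : Pair n → ℝ) : Zp (β / √n) SkS g = partitionFn n β g := by
  unfold Zp partitionFn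
  exact Finset.sum_congr rfl fun σ _ => sk_ez β g σ

lemma sk_gibbs (g : Pair n → ℝ) (σ : Fin n → ℤˣ) :
    gibbs n β g σ = H325.av (β / √n) SkS (fun τ => if τ = σ then 1 else 0) g := by
  unfold gibbs H325.av
  rw [sk_Zp]
  simp only [mul_ite, mul_one, mul_zero, Finset.sum_ite_eq', Finset.mem_univ, if_true]
  rw [sk_ez]

lemma sk_av (h : (Fin n → ℤˣ) → ℝ) (g : Pair n → ℝ) :
    H325.av (β / √n) SkS h g = ∑ σ, h σ * gibbs n β g σ := by
  unfold H325.av gibbs
  rw [sk_Zp, Finset.sum_div]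
  refine Finset.sum_congr rfl fun σ _ => ?_
  rw [sk_ez]
  ring

/-- the law of the spins as a conditional expectation -/
lemma pz_eq (X T : ℝ) (z : Pair n → ℝ) (σ : Fin n → ℤˣ) :
    pz n β X T z σ = RR (β / √n) SkS X (fun _ => √T)
      (H325.av (β / √n) SkS (fun τ => if τ = σ then 1 else 0)) (√(1 - T) • z) := by
  have h1 := RR_eq (β / √n) (SkS (n := n)) X (1 - T)
    (H325.av (β / √n) SkS (fun τ => if τ = σ then 1 else 0)) (√(1 - T) • z)
  have e1 : (1 : ℝ) - (1 - T) = T := by ring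
  rw [e1] at h1
  rw [h1]
  unfold pz
  have hd : disorder n = gI (Pair n) := rfl
  simp_rw [hd, H332.freeEnergy_eq β, sk_gibbs]

/-- the entries of the matrix of the conditional two point functions -/
lemma AA_pz (X T : ℝ) (z : Pair n → ℝ) (p q : Fin n) :
    AA (β / √n) X (1 - T) (√(1 - T) • z) p q = ∑ σ, pr p q σ * pz n β X T z σ := by
  unfold AA cf
  have e1 : (1 : ℝ) - (1 - T) = T := by ring
  rw [e1]
  have h0 : H325.av (β / √n) SkS (pr p q) = fun u : Pair n → ℝ =>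
      ∑ σ, pr p q σ * H325.av (β / √n) SkS (fun τ => if τ = σ then 1 else 0) u := by
    funext u
    rw [sk_av]
    exact Finset.sum_congr rfl fun σ _ => by rw [sk_gibbs]
  rw [h0]
  have h1 : ∀ s : Finset (Fin n → ℤˣ), RR (β / √n) SkS X (fun _ => √T) (fun u : Pair n → ℝ =>
      ∑ σ ∈ s, pr p q σ * H325.av (β / √n) SkS (fun τ => if τ = σ then 1 else 0) u)
        (√(1 - T) • z) = ∑ σ ∈ s, pr p q σ * pz n β X T z σ := by
    intro s
    classical
    induction s using Finset.induction_on with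
    | empty =>
      simp only [Finset.sum_empty]
      exact RR_const _ _ _ _ 0 _
    | insert a s ha ih =>
      simp only [Finset.sum_insert ha]
      rw [RR_add _ _ _ _ ((H325.eg_av _ SkS _).const_mul _)
        (EG.sum _ fun σ _ => (H325.eg_av _ SkS _).const_mul _), ih, RR_const_mul, ← pz_eq]
  exact h1 Finset.univ

lemma sum_pr_sq (σ τ : Fin n → ℤˣ) :
    ∑ p, ∑ q, pr p q σ * pr p q τ = (∑ i, H325.sp σ i * H325.sp τ i) ^ 2 := by
  rw [sq, Finset.sum_mul_sum]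
  refine Finset.sum_congr rfl fun p _ => Finset.sum_congr rfl fun q _ => ?_
  unfold pr
  ring

/-- **The squared norm of the matrix in terms of two replicas.** -/
lemma fr_AA (X T : ℝ) (z : Pair n → ℝ) :
    fr (AA (β / √n) X (1 - T) (√(1 - T) • z)) =
      ∑ σ, ∑ τ, (∑ i, H325.sp σ i * H325.sp τ i) ^ 2 * pz n β X T z σ * pz n β X T z τ := by
  unfold fr
  simp_rw [AA_pz, sq, Finset.sum_mul_sum]
  have h1 : ∀ p q : Fin n, ∑ σ, ∑ τ, pr p q σ * pz n β X T z σ * (pr p q τ * pz n β X T z τ) =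
      ∑ σ, ∑ τ, pr p q σ * pr p q τ * (pz n β X T z σ * pz n β X T z τ) := fun p q =>
    Finset.sum_congr rfl fun σ _ => Finset.sum_congr rfl fun τ _ => by ring
  simp_rw [h1]
  have h2 : ∀ f : Fin n → Fin n → (Fin n → ℤˣ) → (Fin n → ℤˣ) → ℝ,
      ∑ p, ∑ q, ∑ σ, ∑ τ, f p q σ τ = ∑ σ, ∑ τ, ∑ p, ∑ q, f p q σ τ := by
    intro f
    have e1 : ∀ p, ∑ q, ∑ σ, ∑ τ, f p q σ τ = ∑ σ, ∑ τ, ∑ q, f p q σ τ := fun p => by
      rw [Finset.sum_comm]
      exact Finset.sum_congr rfl fun σ _ => Finset.sum_comm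
    simp_rw [e1]
    rw [Finset.sum_comm]
    exact Finset.sum_congr rfl fun σ _ => Finset.sum_comm
  rw [h2]
  refine Finset.sum_congr rfl fun σ _ => Finset.sum_congr rfl fun τ _ => ?_
  have h3 := sum_pr_sq σ τ
  rw [sq, Finset.sum_mul_sum] at h3
  rw [← h3]
  simp_rw [Finset.sum_mul]
  refine Finset.sum_congr rfl fun p _ => Finset.sum_congr rfl fun q _ => ?_
  ring

lemma pz_nonneg (X T : ℝ) (z : Pair n → ℝ) (σ : Fin n → ℤˣ) : 0 ≤ pz n β X T z σ := by
  unfold pz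
  refine div_nonneg (integral_nonneg fun g => mul_nonneg (Real.exp_pos _).le ?_)
    (integral_nonneg fun g => (Real.exp_pos _).le)
  unfold gibbs
  refine div_nonneg (Real.exp_pos _).le ?_
  unfold partitionFn
  exact Finset.sum_nonneg fun τ _ => (Real.exp_pos _).le

lemma eg_pz (X T : ℝ) (σ : Fin n → ℤˣ) : EG fun z : Pair n → ℝ => pz n β X T z σ := by
  have e : (fun z : Pair n → ℝ => pz n β X T z σ) = fun z => RR (β / √n) SkS X (fun _ => √T)
      (H325.av (β / √n) SkS (fun τ => if τ = σ then 1 else 0)) (√(1 - T) • z) :=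
    funext fun z => pz_eq β X T z σ
  rw [e]
  refine EG.smul' (f := fun z => RR (β / √n) SkS X (fun _ => √T)
      (H325.av (β / √n) SkS (fun τ => if τ = σ then 1 else 0)) z) (EG.of_bdd (C := 1)
    (meas_RR _ _ _ (H325.eg_av _ SkS _) _) fun z => ?_) _
  refine abs_RR_le _ _ _ (H325.eg_av _ SkS _) (fun u => ?_) _ _
  refine H325.abs_av_le _ _ (fun τ => ?_) u
  split_ifs <;> simp

/-- **The bridge.** -/
theorem fr_ge (hn : 1 ≤ n) (X T : ℝ) {ε : ℝ} (hε : 0 ≤ ε) :
    (n : ℝ) ^ 2 * ε ^ 2 * H326.St.Mx n β X T ε ≤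
      ∫ z, fr (AA (β / √n) X (1 - T) (√(1 - T) • z)) ∂(gI (Pair n)) := by
  have hn0 : (0 : ℝ) < n := by exact_mod_cast hn
  unfold H326.St.Mx
  have hd : disorder n = gI (Pair n) := rfl
  rw [hd, ← integral_const_mul]
  have e1 : EG fun z : Pair n → ℝ => (n : ℝ) ^ 2 * ε ^ 2 * ∑ σ : Fin n → ℤˣ,
      ∑ τ : Fin n → ℤˣ, (if ε < |overlap n σ τ| then (1 : ℝ) else 0) *
        pz n β X T z σ * pz n β X T z τ :=
    (EG.sum _ fun σ _ => EG.sum _ fun τ _ =>
      ((eg_pz β X T σ).const_mul _).mul (eg_pz β X T τ)).const_mul _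
  have e2 : EG fun z : Pair n → ℝ => fr (AA (β / √n) X (1 - T) (√(1 - T) • z)) := by
    have e3 : (fun z : Pair n → ℝ => fr (AA (β / √n) X (1 - T) (√(1 - T) • z))) = fun z =>
        ∑ σ, ∑ τ, (∑ i, H325.sp σ i * H325.sp τ i) ^ 2 * pz n β X T z σ * pz n β X T z τ :=
      funext fun z => fr_AA β X T z
    rw [e3]
    exact EG.sum _ fun σ _ => EG.sum _ fun τ _ =>
      ((eg_pz β X T σ).const_mul _).mul (eg_pz β X T τ)
  refine integral_mono e1.integrable e2.integrable fun z => ?_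
  simp only
  rw [fr_AA, Finset.mul_sum]
  refine Finset.sum_le_sum fun σ _ => ?_
  rw [Finset.mul_sum]
  refine Finset.sum_le_sum fun τ _ => ?_
  have hp : 0 ≤ pz n β X T z σ * pz n β X T z τ :=
    mul_nonneg (pz_nonneg β X T z σ) (pz_nonneg β X T z τ)
  have ho : ∑ i, H325.sp σ i * H325.sp τ i = n * overlap n σ τ := by
    unfold overlap H325.sp
    field_simp
  rw [ho]
  have key : (n : ℝ) ^ 2 * ε ^ 2 * (if ε < |overlap n σ τ| then (1 : ℝ) else 0) ≤
      (n * overlap n σ τ) ^ 2 := by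
    split_ifs with h
    · rw [mul_one, mul_pow]
      refine mul_le_mul_of_nonneg_left ?_ (sq_nonneg _)
      rw [← sq_abs (overlap n σ τ)]
      exact pow_le_pow_left₀ hε h.le 2
    · rw [mul_zero]
      exact sq_nonneg _
  nlinarith [mul_le_mul_of_nonneg_right key hp]

/-- the same in the letters of `H767.Glue` -/
theorem Qw_ge (hn : 1 ≤ n) {X : ℝ} (hX : 0 < X) (T : ℝ) {ε : ℝ} (hε : 0 ≤ ε) :
    β ^ 2 / (2 * n) * ((n : ℝ) ^ 2 * ε ^ 2 * H326.St.Mx n β X T ε - n) ≤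
      H767.Qw n β X (1 - T) := by
  rw [H767.Qw_eq (by omega) β hX]
  have hn0 : (0 : ℝ) < n := by exact_mod_cast hn
  refine mul_le_mul_of_nonneg_left ?_ (by positivity)
  have := fr_ge β hn X T hε
  linarith

end Vale.Agent.P146.H673
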