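import Vale.Agent.P146.H673.StB

/-!
# P146: [START] (5): the lower bound of the law of the overlap

`start_ineq`: from the variational lower bound of `θ Wψ` and the moment of the mass of the
configurations with a small overlap.
-/

open MeasureTheory ProbabilityTheory

namespace Vale.Agent.P146.H673

open Vale.Agent.P157.Lv Vale.Agent.P146.H425 Vale.Agent.P146.H332 Vale.Agent.P146.H325

set_option linter.unusedSectionVars false

variable {ι : Type} [Fintype ι] [DecidableEq ι] {X : Type} [Fintype X] [Nonempty X]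
variable (k : ℝ) (S : ι → X → ℝ) (ψ : X → X → ℝ)

lemma lw_eq (w : X → ℝ) (u : ι → ℝ) :
    lw k S w u = lz k S u + Real.log (H325.av k S (fun s => Real.exp (w s)) u) := by
  unfold lw lz H325.av
  rw [Real.log_div (sw_pos k S w u).ne' (Zp_pos k S u).ne']
  ring

/-- `Y = - log <exp (-θ ψ)>` -/
lemma Yv_eq (θ : ℝ) (s : X) (g : ι → ℝ) :
    Yv k S ψ θ s g = -Real.log (H325.av k S (fun s' => Real.exp (-θ * ψ s s')) g) := by
  unfold Yv
  rw [lw_eq]
  ring

variable {ψ}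

lemma av_pos {h : X → ℝ} (hh : ∀ s, 0 < h s) (u : ι → ℝ) : 0 < H325.av k S h u := by
  unfold H325.av
  exact div_pos (Finset.sum_pos (fun x _ => mul_pos (ez_pos k S u x) (hh x))
    Finset.univ_nonempty) (Zp_pos k S u)

lemma Yv_nonneg (h0 : ∀ s s', 0 ≤ ψ s s') {θ : ℝ} (hθ : 0 ≤ θ) (s : X) (g : ι → ℝ) :
    0 ≤ Yv k S ψ θ s g := by
  rw [Yv_eq, neg_nonneg]
  refine Real.log_nonpos (av_nonneg k S (fun s' => (Real.exp_pos _).le) g) ?_
  have h1 := av_mono k S (h := fun s' => Real.exp (-θ * ψ s s')) (g := fun _ => 1)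
    (fun s' => by
      rw [Real.exp_le_one_iff]
      nlinarith [mul_nonneg hθ (h0 s s')]) g
  rwa [av_const] at h1

lemma Yv_le (h1 : ∀ s s', ψ s s' ≤ 1) {θ : ℝ} (hθ : 0 ≤ θ) (s : X) (g : ι → ℝ) :
    Yv k S ψ θ s g ≤ θ := by
  rw [Yv_eq]
  have h2 := av_mono k S (h := fun _ => Real.exp (-θ)) (g := fun s' => Real.exp (-θ * ψ s s'))
    (fun s' => by
      refine Real.exp_le_exp.2 ?_
      nlinarith [mul_le_mul_of_nonneg_left (h1 s s') hθ]) g
  rw [av_const] at h2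
  have h3 := Real.log_le_log (Real.exp_pos _) h2
  rw [Real.log_exp] at h3
  linarith

lemma p2_bd (h0 : ∀ s s', 0 ≤ ψ s s') (h1 : ∀ s s', ψ s s' ≤ 1) (s : X) (g : ι → ℝ) :
    0 ≤ p2 k S ψ s g ∧ p2 k S ψ s g ≤ 1 := by
  unfold p2
  refine ⟨av_nonneg k S (fun s' => sub_nonneg.2 (h1 s s')) g, ?_⟩
  have h2 := av_mono k S (h := fun s' => 1 - ψ s s') (g := fun _ => 1)
    (fun s' => by linarith [h0 s s']) g
  rwa [av_const] at h2

/-- The gain when the mass of the small overlaps is small. -/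
lemma Yv_ge (hψ : ∀ s s', ψ s s' = 0 ∨ ψ s s' = 1) {θ : ℝ} (s : X)
    (g : ι → ℝ) (hp : p2 k S ψ s g ≤ Real.exp (-θ)) : θ - Real.log 2 ≤ Yv k S ψ θ s g := by
  rw [Yv_eq]
  have h2 := av_mono k S (h := fun s' => Real.exp (-θ * ψ s s'))
    (g := fun s' => (1 - ψ s s') + Real.exp (-θ)) (fun s' => by
      rcases hψ s s' with h | h <;> rw [h]
      · simp only [mul_zero, Real.exp_zero, sub_zero]
        linarith [Real.exp_pos (-θ)]
      · simp) g
  rw [av_add, av_const] at h2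
  have h3 : H325.av k S (fun s' => 1 - ψ s s') g = p2 k S ψ s g := rfl
  rw [h3] at h2
  have h4 : H325.av k S (fun s' => Real.exp (-θ * ψ s s')) g ≤ 2 * Real.exp (-θ) := by linarith
  have h5 := Real.log_le_log (av_pos k S (fun s' => Real.exp_pos _) g) h4
  rw [Real.log_mul two_ne_zero (Real.exp_pos _).ne', Real.log_exp] at h5
  linarith

/-- pointwise lower bound -/
lemma Yv_ge' (hψ : ∀ s s', ψ s s' = 0 ∨ ψ s s' = 1) {θ y : ℝ} (hθ : Real.log 2 ≤ θ)
    (hy : 0 < y) (s : X) (g : ι → ℝ) :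
    (θ - Real.log 2) * (1 - Real.exp (y * θ) * p2 k S ψ s g ^ y) ≤ Yv k S ψ θ s g := by
  have h0 : ∀ s s', 0 ≤ ψ s s' := fun s s' => by
    rcases hψ s s' with h | h <;> rw [h]
    exact zero_le_one
  have h1 : ∀ s s', ψ s s' ≤ 1 := fun s s' => by
    rcases hψ s s' with h | h <;> rw [h]
    exact zero_le_one
  have hθ0 : 0 ≤ θ := (Real.log_nonneg one_le_two).trans hθ
  obtain ⟨hp0, hp1⟩ := p2_bd k S h0 h1 s g
  rcases le_or_gt (p2 k S ψ s g) (Real.exp (-θ)) with hp | hp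
  · refine le_trans ?_ (Yv_ge k S hψ s g hp)
    have h2 : 0 ≤ Real.exp (y * θ) * p2 k S ψ s g ^ y :=
      mul_nonneg (Real.exp_pos _).le (Real.rpow_nonneg hp0 y)
    nlinarith [mul_nonneg (sub_nonneg.2 hθ) h2]
  · refine le_trans ?_ (Yv_nonneg k S h0 hθ0 s g)
    have h2 : Real.exp (-θ) ^ y ≤ p2 k S ψ s g ^ y :=
      Real.rpow_le_rpow (Real.exp_pos _).le hp.le hy.le
    have h3 : Real.exp (-θ) ^ y = Real.exp (-(y * θ)) := by
      rw [← Real.exp_mul]
      congr 1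
      ring
    rw [h3] at h2
    have h4 := mul_le_mul_of_nonneg_left h2 (Real.exp_pos (y * θ)).le
    rw [← Real.exp_add, add_neg_cancel, Real.exp_zero] at h4
    nlinarith [mul_nonneg (sub_nonneg.2 hθ) (sub_nonneg.2 h4)]

/-- the moment of the mass of the small overlaps under the tilted law -/
noncomputable def Pb (ψ : X → X → ℝ) (x y : ℝ) : ℝ :=
  (∫ z, Real.exp (x * lz k S z) * H325.av k S (fun s => p2 k S ψ s z ^ y) z ∂(gI ι)) /
    ∫ z, Real.exp (x * lz k S z) ∂(gI ι)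

lemma meas_av (h : X → ℝ) : Measurable (H325.av k S h) := by
  have e : H325.av k S h = fun u => ∑ s, ez k S u s / Zp k S u * h s :=
    funext fun u => av_eq k S h u
  rw [e]
  exact Finset.measurable_sum _ fun s _ => ((meas_ez k S s).div (meas_Zp k S)).mul_const _

lemma eg_p2 (h0 : ∀ s s', 0 ≤ ψ s s') (h1 : ∀ s s', ψ s s' ≤ 1) {y : ℝ} (hy : 0 ≤ y) (s : X) :
    EG fun z => p2 k S ψ s z ^ y := by
  refine EG.of_bdd (C := 1) ((meas_av k S _).pow_const y) fun z => ?_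
  obtain ⟨hp0, hp1⟩ := p2_bd k S h0 h1 s z
  rw [abs_of_nonneg (Real.rpow_nonneg hp0 y)]
  exact Real.rpow_le_one hp0 hp1 hy

lemma eg_Yv (h0 : ∀ s s', 0 ≤ ψ s s') (h1 : ∀ s s', ψ s s' ≤ 1) {θ : ℝ} (hθ : 0 ≤ θ) (s : X) :
    EG fun z => Yv k S ψ θ s z := by
  refine EG.of_bdd (C := θ) ?_ fun z => ?_
  · have e : (fun z => Yv k S ψ θ s z) =
        fun z => -Real.log (H325.av k S (fun s' => Real.exp (-θ * ψ s s')) z) :=
      funext fun z => Yv_eq k S ψ θ s z
    rw [e]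
    exact (Real.measurable_log.comp (meas_av k S _)).neg
  · rw [abs_of_nonneg (Yv_nonneg k S h0 hθ s z)]
    exact Yv_le k S h1 hθ s z

lemma int_gvf {f : (ι → ℝ) → ℝ} (hf : EG f) {a b : ℝ} (hab : a ^ 2 + b ^ 2 = 1) :
    ∫ v, f (gv a b v) ∂(gI (ι ⊕ ι)) = ∫ z, f z ∂(gI ι) := int_gv hf hab

/-- the mean of the gain under the tilted law -/
theorem mean_Yv (hψ : ∀ s s', ψ s s' = 0 ∨ ψ s s' = 1) {θ x y a b : ℝ} (hθ : Real.log 2 ≤ θ)
    (hy : 0 < y) (hab : a ^ 2 + b ^ 2 = 1) :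
    (θ - Real.log 2) * (1 - Real.exp (y * θ) * Pb k S ψ x y) ≤
      Ev k S x a b (fun v s => Yv k S ψ θ s (gv a b v)) := by
  have h0 : ∀ s s', 0 ≤ ψ s s' := fun s s' => by
    rcases hψ s s' with h | h <;> rw [h]
    exact zero_le_one
  have h1 : ∀ s s', ψ s s' ≤ 1 := fun s s' => by
    rcases hψ s s' with h | h <;> rw [h]
    exact zero_le_one
  have hθ0 : 0 ≤ θ := (Real.log_nonneg one_le_two).trans hθ
  have ep : ∀ s, EG fun v : ι ⊕ ι → ℝ => p2 k S ψ s (gv a b v) ^ y := fun s =>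
    EG.gv (eg_p2 k S h0 h1 hy.le s) a b
  have eY : ∀ s, EG fun v : ι ⊕ ι → ℝ => Yv k S ψ θ s (gv a b v) := fun s =>
    EG.gv (eg_Yv k S h0 h1 hθ0 s) a b
  have hPb : Ev k S x a b (fun v s => p2 k S ψ s (gv a b v) ^ y) = Pb k S ψ x y := by
    unfold Ev Pb
    congr 1
    have eA : EG fun z => Real.exp (x * lz k S z) *
        H325.av k S (fun s => p2 k S ψ s z ^ y) z := by
      refine ((lip_lz k S).exp_eg x).mul ?_
      have e : (fun z => H325.av k S (fun s => p2 k S ψ s z ^ y) z) =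
          fun z => ∑ s, ez k S z s / Zp k S z * p2 k S ψ s z ^ y :=
        funext fun z => av_eq k S _ z
      rw [e]
      refine EG.sum _ fun s _ => EG.mul (EG.of_bdd (C := 1) ?_ fun v => ?_)
        (eg_p2 k S h0 h1 hy.le s)
      · exact (meas_ez k S s).div (meas_Zp k S)
      · rw [abs_of_nonneg (gw_bd k S _ s).1]
        exact (gw_bd k S _ s).2
    exact int_gvf eA hab
  have h2 := Ev_mono k S (G := fun v s => (θ - Real.log 2) *
      (1 - Real.exp (y * θ) * p2 k S ψ s (gv a b v) ^ y))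
    (H := fun v s => Yv k S ψ θ s (gv a b v))
    (fun s => EG.const_mul _ ((EG.const 1).sub ((ep s).const_mul _))) eY x a b
    (fun v s => Yv_ge' k S hψ hθ hy s _)
  refine le_trans (le_of_eq ?_) h2
  rw [Ev_const_mul, Ev_sub k S (G := fun _ _ => (1 : ℝ)) (fun s => EG.const 1)
    (fun s => (ep s).const_mul _), Ev_const_mul, Ev_const k S 1 hab, hPb]

lemma eg_Y1 {x' b : ℝ} (hx' : 0 < x') (θ : ℝ) (s : X) (a : ℝ) :
    EG fun v : ι ⊕ ι → ℝ => Y1 k S ψ x' b θ s (a • v0 v) := by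
  have hK := Kb_nonneg k S
  have h1 : EG (W x' b (lz k S)) :=
    (((c11_lz k S).lip.W (c11_lz k S).B0 hx').lip (c11_lz k S).B0).eg
  have h2 : EG (W x' b (lw k S (fun s' => -θ * ψ s s'))) :=
    (((lipB_lw k S _).W hK hx').lip hK).eg
  exact (EG.v0 (EG.smul' h1 a)).sub (EG.v0 (EG.smul' h2 a))

/-- **[START] (4) and the left side of (5).** -/
theorem mean_ge (hψ : ∀ s s', ψ s s' = 0 ∨ ψ s s' = 1) {θ x y a b x' : ℝ}
    (hθ : Real.log 2 ≤ θ) (hy : 0 < y) (hx' : 0 < x') (hb : 0 ≤ b) (hxb : x' * b ≤ 1)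
    (hab : a ^ 2 + b ^ 2 = 1) :
    (θ - Real.log 2) * (1 - Real.exp (y * θ) * Pb k S ψ x y) -
        2 * x' * b * (KL (lz k S) x + 2 * Am k S) ≤
      Exx k S x a b (fun y g s => (1 - x') * Yv k S ψ θ s g + x' * Y1 k S ψ x' b θ s y) := by
  have h0 : ∀ s s', 0 ≤ ψ s s' := fun s s' => by
    rcases hψ s s' with h | h <;> rw [h]
    exact zero_le_one
  have h1 : ∀ s s', ψ s s' ≤ 1 := fun s s' => by
    rcases hψ s s' with h | h <;> rw [h]
    exact zero_le_one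
  have hθ0 : 0 ≤ θ := (Real.log_nonneg one_le_two).trans hθ
  have eY : ∀ s, EG fun v : ι ⊕ ι → ℝ => Yv k S ψ θ s (gv a b v) := fun s =>
    EG.gv (eg_Yv k S h0 h1 hθ0 s) a b
  have eM : ∀ s : X, EG fun v : ι ⊕ ι → ℝ => x' * (2 * b * (Mx k S (v1 v) + Am k S)) := fun s =>
    (((EG.v1 (lip_Mx k S).eg).add (EG.const _)).const_mul _).const_mul _
  have e1 : ∀ s, EG fun v : ι ⊕ ι → ℝ => Y1 k S ψ x' b θ s (a • v0 v) := fun s =>
    eg_Y1 k S hx' θ s a
  have hE : Exx k S x a b (fun y g s => (1 - x') * Yv k S ψ θ s g + x' * Y1 k S ψ x' b θ s y) =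
      Ev k S x a b (fun v s => (1 - x') * Yv k S ψ θ s (gv a b v) +
        x' * Y1 k S ψ x' b θ s (a • v0 v)) := rfl
  rw [hE]
  have h2 := Ev_mono k S (G := fun v s => Yv k S ψ θ s (gv a b v) -
      x' * (2 * b * (Mx k S (v1 v) + Am k S)))
    (H := fun v s => (1 - x') * Yv k S ψ θ s (gv a b v) + x' * Y1 k S ψ x' b θ s (a • v0 v))
    (fun s => (eY s).sub (eM s)) (fun s => ((eY s).const_mul _).add ((e1 s).const_mul _)) x a b
    (fun v s => by
      have h3 := (abs_le.1 (abs_W_sub k S (fun s' => -θ * ψ s s') hx' hb hxb (a • v0 v)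
        (v1 v))).1
      have h4 := mul_le_mul_of_nonneg_left h3 hx'.le
      have e2 : a • v0 v + b • v1 v = gv a b v := rfl
      rw [e2] at h4
      simp only [Yv, Y1]
      nlinarith [h4])
  refine le_trans ?_ h2
  rw [Ev_sub k S eY eM]
  have h3 := mean_Yv k S hψ (x := x) (a := a) (b := b) hθ hy hab
  have h4 : Ev k S x a b (fun v _ => x' * (2 * b * (Mx k S (v1 v) + Am k S))) ≤
      2 * x' * b * (KL (lz k S) x + 2 * Am k S) := by
    rw [Ev_const_mul, Ev_const_mul, Ev_add k S (G := fun v _ => Mx k S (v1 v))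
      (H := fun _ _ => Am k S) (fun s => EG.v1 (lip_Mx k S).eg) (fun s => EG.const _),
      Ev_const k S _ hab]
    have h5 : Ev k S x a b (fun v _ => Mx k S (v1 v)) ≤ KL (lz k S) x + Am k S := by
      refine le_trans (le_of_eq ?_) (mean_Mx k S hab x)
      unfold Ev
      simp_rw [av_const]
    have h6 : 0 ≤ 2 * x' * b := by positivity
    nlinarith [mul_le_mul_of_nonneg_left h5 h6]
  linarith

end Vale.Agent.P146.H673
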