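import Vale.Agent.P146.H673.Start

/-!
# P146: [START], the asymptotic statement
-/

open MeasureTheory ProbabilityTheory Filter Topology

namespace Vale.Agent.P146.H673

open Vale.Agent.P157.Lv Vale.Agent.P146.H425 Vale.Agent.P146.H332 Vale.Agent.P146.H325
open Vale.Agent.P146.H605 Vale.Agent.P146.H522

set_option linter.unusedSectionVars false

/-- the conditions on the length of the window -/
lemma window {β l c X x T B : ℝ} (hβ : 0 < β) (hl : 0 < l) (hB : B = 400 ^ 5)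
    (hc0 : 0 < c) (hc1 : c ≤ (l / (1100 * β * B)) ^ 2) (hc2 : c ≤ (1 / β) ^ 2) (hc3 : c ≤ 1)
    (hX0 : 0 < X) (hX1 : X ≤ 1) (hX : X = 400 * x) (hTc : T ≤ c * X ^ 10) :
    T ≤ 1 ∧ X * β * √T ≤ 1 ∧ 1100 * β * √T ≤ l * x ^ 5 := by
  have hB0 : 0 < B := by rw [hB]; positivity
  have hsq : √T ≤ √c * X ^ 5 := by
    have e1 : √(c * X ^ 10) = √c * X ^ 5 := by
      rw [Real.sqrt_mul hc0.le]
      congr 1
      have : X ^ 10 = (X ^ 5) ^ 2 := by ring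
      rw [this, Real.sqrt_sq (by positivity)]
    rw [← e1]
    exact Real.sqrt_le_sqrt hTc
  have hsc1 : √c ≤ l / (1100 * β * B) := by
    have := Real.sqrt_le_sqrt hc1
    rwa [Real.sqrt_sq (by positivity)] at this
  have hsc2 : √c ≤ 1 / β := by
    have := Real.sqrt_le_sqrt hc2
    rwa [Real.sqrt_sq (by positivity)] at this
  have hX5 : X ^ 5 ≤ 1 := pow_le_one₀ hX0.le hX1
  have hX50 : 0 < X ^ 5 := by positivity
  refine ⟨?_, ?_, ?_⟩
  · refine hTc.trans ?_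
    have : X ^ 10 ≤ 1 := pow_le_one₀ hX0.le hX1
    have h2 : 0 ≤ X ^ 10 := by positivity
    calc c * X ^ 10 ≤ 1 * 1 := mul_le_mul hc3 this h2 zero_le_one
      _ = 1 := one_mul 1
  · have e1 : √T ≤ 1 / β := by
      refine hsq.trans ?_
      calc √c * X ^ 5 ≤ 1 / β * 1 := mul_le_mul hsc2 hX5 hX50.le (by positivity)
        _ = 1 / β := mul_one _
    have e2 : β * √T ≤ 1 := by
      have := mul_le_mul_of_nonneg_left e1 hβ.le
      rwa [mul_one_div_cancel hβ.ne'] at this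
    have e3 : 0 ≤ β * √T := by positivity
    calc X * β * √T = X * (β * √T) := by ring
      _ ≤ 1 * 1 := mul_le_mul hX1 e2 e3 zero_le_one
      _ = 1 := one_mul 1
  · have e1 : √T ≤ l / (1100 * β * B) * X ^ 5 :=
      hsq.trans (mul_le_mul_of_nonneg_right hsc1 hX50.le)
    have e2 := mul_le_mul_of_nonneg_left e1 (by positivity : 0 ≤ 1100 * β)
    refine e2.trans (le_of_eq ?_)
    have e3 : X ^ 5 = B * x ^ 5 := by rw [hX, hB]; ring
    rw [e3]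
    field_simp

/-- from the law of the overlap to the mean squares -/
lemma squares {n : ℕ} (hn : 1 ≤ n) {β l c X x T B : ℝ} (hβ : 0 < β) (hl : 0 < l)
    (hB : B = 400 ^ 5) (hc4 : c ≤ l / (2 * β ^ 2 * B)) (hc5 : c ≤ l / (8 * B))
    (hX0 : 0 < X) (hX : X = 400 * x) (hn5 : 4 * β ^ 2 ≤ l * n * x ^ 5)
    (hM : 1 / 2 ≤ H326.St.Mx n β X T (√(l * x ^ 5) / β)) :
    c * n ^ 2 * X ^ 5 ≤
      ∫ z, fr (AA (β / √n) X (1 - T) (√(1 - T) • z)) ∂(gI (Pair n)) ∧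
    c * n * X ^ 5 ≤ H767.Qw n β X (1 - T) := by
  have hn0 : (0 : ℝ) < n := by exact_mod_cast hn
  have hB0 : 0 < B := by rw [hB]; positivity
  have hx0 : 0 < x := by linarith
  obtain ⟨ε, hε⟩ : ∃ ε, ε = √(l * x ^ 5) / β := ⟨_, rfl⟩
  have hε0 : 0 ≤ ε := by rw [hε]; positivity
  have hε2 : ε ^ 2 = l * x ^ 5 / β ^ 2 := by
    rw [hε, div_pow, Real.sq_sqrt (by positivity)]
  rw [← hε] at hM
  have e5 : X ^ 5 = B * x ^ 5 := by rw [hX, hB]; ring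
  have hA : (n : ℝ) ^ 2 * (l * x ^ 5 / β ^ 2) / 2 ≤
      (n : ℝ) ^ 2 * ε ^ 2 * H326.St.Mx n β X T ε := by
    rw [hε2]
    have h0 : 0 ≤ (n : ℝ) ^ 2 * (l * x ^ 5 / β ^ 2) := by positivity
    have := mul_le_mul_of_nonneg_left hM h0
    linarith
  constructor
  · refine le_trans ?_ (fr_ge β hn X T hε0)
    refine le_trans ?_ hA
    have e1 : (n : ℝ) ^ 2 * (l * x ^ 5 / β ^ 2) / 2 = l / (2 * β ^ 2 * B) * (n ^ 2 * X ^ 5) := by
      rw [e5]
      field_simp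
    rw [e1, mul_assoc]
    exact mul_le_mul_of_nonneg_right hc4 (by positivity)
  · refine le_trans ?_ (Qw_ge β hn hX0 T hε0)
    have e0 : 0 ≤ β ^ 2 / (2 * n) := by positivity
    refine le_trans ?_ (mul_le_mul_of_nonneg_left (sub_le_sub_right hA (n : ℝ)) e0)
    have e1 : β ^ 2 / (2 * n) * ((n : ℝ) ^ 2 * (l * x ^ 5 / β ^ 2) / 2 - n) =
        l * n * x ^ 5 / 4 - β ^ 2 / 2 := by
      field_simp
      ring
    rw [e1]
    have e2 : c * n * X ^ 5 ≤ l * n * x ^ 5 / 8 := by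
      have e3 : l * n * x ^ 5 / 8 = l / (8 * B) * (n * X ^ 5) := by
        rw [e5]
        field_simp
      rw [e3, mul_assoc]
      exact mul_le_mul_of_nonneg_right hc5 (by positivity)
    linarith

/-- the size of `n X ^ 7` -/
lemma nX_ge {n : ℕ} (hn : 1 ≤ n) {a0 X : ℝ} (hXa : (n : ℝ) ^ (-a0) ≤ X) (hX0 : 0 < X)
    (hX1 : X ≤ 1) :
    (n : ℝ) ^ (1 - 7 * a0) ≤ n * X ^ 7 ∧ (n : ℝ) ^ (1 - 7 * a0) ≤ n * X ^ 5 := by
  have hn0 : (0 : ℝ) < n := by exact_mod_cast hn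
  have e1 : (n : ℝ) ^ (1 - 7 * a0) = n * ((n : ℝ) ^ (-a0)) ^ 7 := by
    rw [← Real.rpow_natCast, ← Real.rpow_mul hn0.le]
    nth_rw 2 [← Real.rpow_one (n : ℝ)]
    rw [← Real.rpow_add hn0]
    congr 1
    push_cast
    ring
  have h7 : (n : ℝ) ^ (1 - 7 * a0) ≤ n * X ^ 7 := by
    rw [e1]
    exact mul_le_mul_of_nonneg_left (pow_le_pow_left₀ (Real.rpow_pos_of_pos hn0 _).le hXa 7)
      hn0.le
  have h75 : n * X ^ 7 ≤ n * X ^ 5 :=
    mul_le_mul_of_nonneg_left (pow_le_pow_of_le_one hX0.le hX1 (by norm_num)) hn0.le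
  exact ⟨h7, h7.trans h75⟩

lemma low_le {n : ℕ} (hn : 1 ≤ n) {a0 a' X x : ℝ} (hXa : (n : ℝ) ^ (-a0) ≤ X)
    (hX : X = 400 * x) (h3 : 800 ≤ (n : ℝ) ^ (a' - a0)) : (n : ℝ) ^ (-a') ≤ x / 2 := by
  have hn0 : (0 : ℝ) < n := by exact_mod_cast hn
  have e1 : (n : ℝ) ^ (-a') * (n : ℝ) ^ (a' - a0) = (n : ℝ) ^ (-a0) := by
    rw [← Real.rpow_add hn0]
    congr 1
    ring
  have e2 := mul_le_mul_of_nonneg_left h3 (Real.rpow_pos_of_pos hn0 (-a')).le
  rw [e1] at e2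
  linarith

/-- **[START]**: from the moment law `log E e^{x(F-np)} ~ l n x^6`, for every window `T ≤ c X^10`
with the exponent `X`, the mean square overlap is at least `c X^5`. -/
theorem start_of (hcmp : H326.St.Cmp) (hcore : H326.St.Core) {β l p θ : ℝ} (hβ : 0 < β)
    (hl : 0 < l) (hθ0 : 0 < θ) (hθ7 : θ ≤ 1 / 7)
    (hm : ∀ ε : ℝ, 0 < ε → ∀ a : ℝ, a < θ → ∃ δ : ℝ, 0 < δ ∧ ∀ᶠ n : ℕ in atTop,
      ∀ x : ℝ, (n : ℝ) ^ (-a) ≤ x → x ≤ δ →
        |Real.log (∫ g, Real.exp (x * (freeEnergy n β g - n * p)) ∂(disorder n)) -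
          l * n * x ^ 6| ≤ ε * n * x ^ 6) :
    ∃ c : ℝ, 0 < c ∧ ∀ a : ℝ, a < θ → ∃ δ : ℝ, 0 < δ ∧ ∀ᶠ n : ℕ in atTop,
      ∀ X : ℝ, (n : ℝ) ^ (-a) ≤ X → X ≤ δ → ∀ T : ℝ, 0 ≤ T → T ≤ c * X ^ 10 →
        c * n ^ 2 * X ^ 5 ≤
          ∫ z, fr (AA (β / √n) X (1 - T) (√(1 - T) • z)) ∂(gI (Pair n)) ∧
        c * n * X ^ 5 ≤ H767.Qw n β X (1 - T) := by
  obtain ⟨B, hB⟩ : ∃ B : ℝ, B = 400 ^ 5 := ⟨_, rfl⟩
  have hB0 : 0 < B := by rw [hB]; positivity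
  obtain ⟨c, hc⟩ : ∃ c, c = min (min (min ((l / (1100 * β * B)) ^ 2) ((1 / β) ^ 2)) 1)
    (min (l / (2 * β ^ 2 * B)) (l / (8 * B))) := ⟨_, rfl⟩
  have hc0 : 0 < c := by rw [hc]; positivity
  have hc1 : c ≤ (l / (1100 * β * B)) ^ 2 := by
    rw [hc]; exact (min_le_left _ _).trans ((min_le_left _ _).trans (min_le_left _ _))
  have hc2 : c ≤ (1 / β) ^ 2 := by
    rw [hc]; exact (min_le_left _ _).trans ((min_le_left _ _).trans (min_le_right _ _))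
  have hc3 : c ≤ 1 := by rw [hc]; exact (min_le_left _ _).trans (min_le_right _ _)
  have hc4 : c ≤ l / (2 * β ^ 2 * B) := by
    rw [hc]; exact (min_le_right _ _).trans (min_le_left _ _)
  have hc5 : c ≤ l / (8 * B) := by
    rw [hc]; exact (min_le_right _ _).trans (min_le_right _ _)
  clear hc
  refine ⟨c, hc0, fun a ha => ?_⟩
  obtain ⟨a0, ha0⟩ : ∃ a0, a0 = max a 0 := ⟨_, rfl⟩
  have ha00 : 0 ≤ a0 := by rw [ha0]; exact le_max_right _ _
  have haa0 : a ≤ a0 := by rw [ha0]; exact le_max_left _ _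
  have ha0θ : a0 < θ := by rw [ha0]; exact max_lt ha hθ0
  clear ha0
  obtain ⟨a', ha'⟩ : ∃ a', a' = (a0 + θ) / 2 := ⟨_, rfl⟩
  obtain ⟨δ, hδ, h1⟩ := hm (l / 1000) (by positivity) a' (by linarith)
  refine ⟨min (min 1 (200 * δ)) (1 / (189 * l)), by positivity, ?_⟩
  have t1 : Tendsto (fun n : ℕ => (n : ℝ) ^ (a' - a0)) atTop atTop :=
    (tendsto_rpow_atTop (by linarith)).comp tendsto_natCast_atTop_atTop
  have t2 : Tendsto (fun n : ℕ => (n : ℝ) ^ (1 - 7 * a0)) atTop atTop :=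
    (tendsto_rpow_atTop (by linarith)).comp tendsto_natCast_atTop_atTop
  filter_upwards [h1, t1.eventually_ge_atTop 800, t2.eventually_ge_atTop (200 * 400 ^ 6 / l),
    t2.eventually_ge_atTop (4 * β ^ 2 * B / l), eventually_ge_atTop 1] with n h2 h3 h4 h5 hn
  intro X hX hXδ T hT hTc
  have hn1 : (1 : ℝ) ≤ n := by exact_mod_cast hn
  have hn0 : (0 : ℝ) < n := by linarith
  have hXa : (n : ℝ) ^ (-a0) ≤ X :=
    (Real.rpow_le_rpow_of_exponent_le hn1 (by linarith)).trans hX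
  have hX0 : 0 < X := (Real.rpow_pos_of_pos hn0 _).trans_le hXa
  have hX1 : X ≤ 1 := hXδ.trans ((min_le_left _ _).trans (min_le_left _ _))
  have hXm : X ≤ 200 * δ := hXδ.trans ((min_le_left _ _).trans (min_le_right _ _))
  have hXl : X ≤ 1 / (189 * l) := hXδ.trans (min_le_right _ _)
  obtain ⟨x, hx⟩ : ∃ x, x = X / 400 := ⟨_, rfl⟩
  have hX400 : X = 400 * x := by rw [hx]; ring
  have hx0 : 0 < x := by linarith
  have hlow : (n : ℝ) ^ (-a') ≤ x / 2 := low_le hn hXa hX400 h3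
  obtain ⟨h7, h75⟩ := nX_ge hn hXa hX0 hX1
  have hn7 : 200 ≤ l * n * x ^ 6 * X := by
    have e1 := h4.trans h7
    rw [div_le_iff₀ hl] at e1
    have e2 : n * X ^ 7 * l = 400 ^ 6 * (l * n * x ^ 6 * X) := by rw [hX400]; ring
    rw [e2] at e1
    have e3 : (0 : ℝ) < 400 ^ 6 := by positivity
    rw [mul_comm (200 : ℝ)] at e1
    exact le_of_mul_le_mul_left e1 e3
  have hn5 : 4 * β ^ 2 ≤ l * n * x ^ 5 := by
    have e1 := h5.trans h75
    rw [div_le_iff₀ hl] at e1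
    have e2 : n * X ^ 5 * l = B * (l * n * x ^ 5) := by rw [hX400, hB]; ring
    rw [e2, mul_comm _ B] at e1
    exact le_of_mul_le_mul_left e1 hB0
  obtain ⟨hT1, hTX, hT2⟩ := window hβ hl hB hc0 hc1 hc2 hc3 hX0 hX1 hX400 hTc
  have hx6 : 189 * l * x ^ 6 ≤ 1 := by
    have e1 : x ≤ X := by linarith
    have e2 : x ^ 6 ≤ X := by
      have : x ^ 6 ≤ x ^ 1 := pow_le_pow_of_le_one hx0.le (e1.trans hX1) (by norm_num)
      rw [pow_one] at this
      exact this.trans e1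
    have e3 : 189 * l * x ^ 6 ≤ 189 * l * (1 / (189 * l)) :=
      mul_le_mul_of_nonneg_left (e2.trans hXl) (by positivity)
    refine e3.trans (le_of_eq ?_)
    field_simp
  have hM := start_n (p := p) hcmp hcore hn hβ hl hx0 hX400 hX1 hT hT1
    (h2 (x / 2) hlow (by linarith)) (h2 x (by linarith) (by linarith))
    (h2 (2 * x) (by linarith) (by linarith)) hx6 hn7 hTX hT2
  exact squares hn hβ hl hB hc4 hc5 hX0 hX400 hn5 hM

end Vale.Agent.P146.H673
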