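import Vale.Agent.P146.H673.StBr

/-!
# P146: [START] from the comparison, the core inequality and the moment law

For every `X ≥ n ^ (-a)` and every window of length `T ≤ c X ^ 10` with the exponent `X`, the mean
square overlap is at least `c X ^ 5`.
-/

open MeasureTheory ProbabilityTheory Filter Topology

namespace Vale.Agent.P146.H673

open Vale.Agent.P157.Lv Vale.Agent.P146.H425 Vale.Agent.P146.H332 Vale.Agent.P146.H325
open Vale.Agent.P146.H605 Vale.Agent.P146.H522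

set_option linter.unusedSectionVars false

/-- `log E exp (y (F - n p))` -/
noncomputable def Gc (n : ℕ) (β p y : ℝ) : ℝ :=
  Real.log (∫ g, Real.exp (y * (freeEnergy n β g - n * p)) ∂(disorder n))

lemma lg_pos (n : ℕ) (β y : ℝ) : 0 < ∫ g, Real.exp (y * freeEnergy n β g) ∂(disorder n) := by
  have hd : disorder n = gI (Pair n) := rfl
  simp_rw [hd, H332.freeEnergy_eq β]
  exact integral_exp_pos (((c11_lz (β / √n) (SkS (n := n))).lip.lip
    (c11_lz (β / √n) (SkS (n := n))).B0).exp_eg y).integrable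

lemma Lg_eq (n : ℕ) (β p y : ℝ) : H326.St.Lg n β y = y * (n * p) + Gc n β p y := by
  unfold H326.St.Lg Gc
  have e : ∀ g, Real.exp (y * (freeEnergy n β g - n * p)) =
      Real.exp (-(y * (n * p))) * Real.exp (y * freeEnergy n β g) := fun g => by
    rw [← Real.exp_add]
    congr 1
    ring
  simp_rw [e]
  rw [integral_const_mul, Real.log_mul (Real.exp_pos _).ne' (lg_pos n β y).ne', Real.log_exp]
  ring

lemma ratio_ge {t : ℝ} (h0 : 0 < t) (h1 : t ≤ 1) : 1 - t ≤ t / (Real.exp t - 1) := by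
  have h2 : 0 < Real.exp t - 1 := by linarith [Real.add_one_lt_exp h0.ne']
  rw [le_div_iff₀ h2]
  have h3 : Real.exp t ≤ 1 + t + t ^ 2 := by
    have h4 := Real.abs_exp_sub_one_sub_id_le (x := t) (by rw [abs_of_pos h0]; exact h1)
    linarith [(abs_le.1 h4).2]
  nlinarith [mul_nonneg h0.le (sub_nonneg.2 h1), mul_nonneg (sub_nonneg.2 h1) (sub_nonneg.2 h3)]

/-- the moment of the mass of the small overlaps -/
lemma P2_le (hcmp : H326.St.Cmp) {n : ℕ} (hn : 1 ≤ n) {β l p x ε m : ℝ} (hx : 0 < x)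
    (hx1 : x ≤ 1) (hε0 : 0 ≤ ε) (hε2 : β ^ 2 * ε ^ 2 = l * x ^ 5) (hm : m = l * n * x ^ 6)
    (hG1 : Gc n β p (x / 2) ≤ m / 64 + m / 64000) (hG2 : m - m / 1000 ≤ Gc n β p x)
    (hm0 : 0 < m) :
    H326.St.P2 n β x (x / 2) ε ≤ Real.exp (-(x / 2 * (l * n * x ^ 5))) := by
  have hL := hcmp n β x (x / 2) ε hn (by positivity) (by linarith) hx1 hε0
  refine hL.trans (Real.exp_le_exp.2 ?_)
  rw [Lg_eq n β p, Lg_eq n β p]
  have c1 : x - x / 2 = x / 2 := by ring
  rw [c1, Lg_eq n β p]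
  have c2 : β ^ 2 * (x / 2) * n * ε ^ 2 / 2 = m / 4 := by
    have : β ^ 2 * (x / 2) * n * ε ^ 2 / 2 = (β ^ 2 * ε ^ 2) * (x * n / 4) := by ring
    rw [this, hε2, hm]
    ring
  have c3 : x / 2 * (l * n * x ^ 5) = m / 2 := by rw [hm]; ring
  rw [c2, c3]
  linarith

/-- the losses -/
lemma loss_le {n θ m l x X β T K2 : ℝ} (hn : 0 < n) (hl : 0 < l) (hx : 0 < x) (hX : X = 400 * x)
    (hX1 : X ≤ 1)
    (hβ : 0 < β) (hθ : θ = l * n * x ^ 5) (hm : m = l * n * x ^ 6) (hmn : 189 * m ≤ n)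
    (hn7 : 200 ≤ m * X) (hT2 : 1100 * β * √T ≤ l * x ^ 5) (hK2 : K2 ≤ 63 * m) :
    1 - 18 / 100 * X ≤ (θ - Real.log 2 / (x / 2) - K2 -
      X * β * √T * (3 * (2 * n + K2) + 4 * n)) / θ := by
  have hX0 : 0 < X := by rw [hX]; positivity
  have hθ0 : 0 < θ := by rw [hθ]; positivity
  have hθx : θ * x = m := by rw [hθ, hm]; ring
  have p1 : Real.log 2 / (x / 2) ≤ X / 100 * θ := by
    have q1 : Real.log 2 ≤ 1 := by linarith [Real.log_two_lt_d9]
    rw [div_le_iff₀ (by positivity)]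
    have q2 : X / 100 * θ * (x / 2) = m * X / 200 := by rw [← hθx]; ring
    rw [q2]
    linarith
  have p2 : K2 ≤ 63 / 400 * X * θ := by
    refine hK2.trans (le_of_eq ?_)
    rw [← hθx, hX]
    ring
  have p3 : X * β * √T * (3 * (2 * n + K2) + 4 * n) ≤ X / 100 * θ := by
    have q1 : 3 * (2 * n + K2) + 4 * n ≤ 11 * n := by linarith
    have q2 : 0 ≤ X * β * √T := by positivity
    have q3 := mul_le_mul_of_nonneg_left q1 q2
    refine q3.trans ?_
    have q4 : X / 100 * θ = X * n / 100 * (l * x ^ 5) := by rw [hθ]; ring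
    rw [q4]
    have q5 : 0 ≤ X * n / 100 := by positivity
    have q6 := mul_le_mul_of_nonneg_left hT2 q5
    linarith
  rw [le_div_iff₀ hθ0]
  have q7 : (1 - 18 / 100 * X) * θ = θ - 18 / 100 * (X * θ) := by ring
  have q8 : 0 ≤ X * θ := by positivity
  have q9 : X / 100 * θ = 1 / 100 * (X * θ) := by ring
  have q10 : 63 / 400 * X * θ = 63 / 400 * (X * θ) := by ring
  rw [q9] at p1 p3
  rw [q10] at p2
  rw [q7]
  linarith

lemma prod_ge {X A : ℝ} (hX : 0 < X) (hX1 : X ≤ 1) (hA : 1 - 18 / 100 * X ≤ A) :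
    1 - X / 2 ≤ X / 50 / (Real.exp (X / 50) - 1) * A := by
  have hratio := ratio_ge (t := X / 50) (by positivity) (by linarith)
  have r1 : 0 ≤ 1 - X / 50 := by linarith
  have r2 : 0 ≤ 1 - 18 / 100 * X := by linarith
  have r3 := mul_le_mul hratio hA r2 (r1.trans hratio)
  refine le_trans ?_ r3
  nlinarith

/-- **[START] at fixed `n`.** -/
theorem start_n (hcmp : H326.St.Cmp) (hcore : H326.St.Core) {n : ℕ} (hn : 1 ≤ n)
    {β l p x X T : ℝ} (hβ : 0 < β) (hl : 0 < l) (hx : 0 < x) (hX : X = 400 * x) (hX1 : X ≤ 1)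
    (hT : 0 ≤ T) (hT1 : T ≤ 1)
    (h1 : |Gc n β p (x / 2) - l * n * (x / 2) ^ 6| ≤ l / 1000 * n * (x / 2) ^ 6)
    (h2 : |Gc n β p x - l * n * x ^ 6| ≤ l / 1000 * n * x ^ 6)
    (h3 : |Gc n β p (2 * x) - l * n * (2 * x) ^ 6| ≤ l / 1000 * n * (2 * x) ^ 6)
    (hx6 : 189 * l * x ^ 6 ≤ 1)
    (hn7 : 200 ≤ l * n * x ^ 6 * X)
    (hTX : X * β * √T ≤ 1) (hT2 : 1100 * β * √T ≤ l * x ^ 5) :
    1 / 2 ≤ H326.St.Mx n β X T (√(l * x ^ 5) / β) := by
  have hn0 : (0 : ℝ) < n := by exact_mod_cast hn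
  have hX0 : 0 < X := by rw [hX]; positivity
  have hx1 : x ≤ 1 / 400 := by linarith
  obtain ⟨m, hm⟩ : ∃ m, m = l * n * x ^ 6 := ⟨_, rfl⟩
  have hm0 : 0 < m := by rw [hm]; positivity
  obtain ⟨ε, hε⟩ : ∃ ε, ε = √(l * x ^ 5) / β := ⟨_, rfl⟩
  have hε0 : 0 ≤ ε := by rw [hε]; positivity
  have hε2 : β ^ 2 * ε ^ 2 = l * x ^ 5 := by
    rw [hε, div_pow, Real.sq_sqrt (by positivity)]
    field_simp
  have hG1 : Gc n β p (x / 2) ≤ m / 64 + m / 64000 := by
    have := (abs_le.1 h1).2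
    have b1 : l * n * (x / 2) ^ 6 = m / 64 := by rw [hm]; ring
    have b2 : l / 1000 * n * (x / 2) ^ 6 = m / 64000 := by rw [hm]; ring
    linarith
  have hG2 : m - m / 1000 ≤ Gc n β p x := by
    have := (abs_le.1 h2).1
    have b2 : l / 1000 * n * x ^ 6 = m / 1000 := by rw [hm]; ring
    linarith
  have hG3 : Gc n β p (2 * x) ≤ 64 * m + 64 * m / 1000 := by
    have := (abs_le.1 h3).2
    have b1 : l * n * (2 * x) ^ 6 = 64 * m := by rw [hm]; ring
    have b2 : l / 1000 * n * (2 * x) ^ 6 = 64 * m / 1000 := by rw [hm]; ring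
    linarith
  have hP2 := P2_le hcmp hn hx (by linarith) hε0 hε2 hm hG1 hG2 hm0
  obtain ⟨K2, hK2⟩ : ∃ K2, K2 = H326.St.Lg n β (2 * x) - 2 * H326.St.Lg n β x := ⟨_, rfl⟩
  have hK2le : K2 ≤ 63 * m := by
    rw [hK2, Lg_eq n β p, Lg_eq n β p]
    linarith
  have hmn : 189 * m ≤ n := by
    have := mul_le_mul_of_nonneg_right hx6 hn0.le
    have b1 : 189 * l * x ^ 6 * n = 189 * m := by rw [hm]; ring
    linarith
  have hθ : X / 50 < l * n * x ^ 5 := by
    have d1 : l * n * x ^ 6 * X = l * n * x ^ 5 * (x * X) := by ring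
    have d3 : x * X ≤ 1 := by nlinarith
    have d4 : 0 < l * n * x ^ 5 := by positivity
    have d5 := mul_le_mul_of_nonneg_left d3 d4.le
    linarith
  have hC := hcore n β x (x / 2) X T ε (l * n * x ^ 5) (X / 50) hn hβ hx (by positivity)
    (by linarith) hX0 hX1 hT hT1 hTX hε0 (by positivity) hθ hP2
  rw [← hK2] at hC
  rw [← hε]
  rw [← hm] at hn7
  have hQ := loss_le hn0 hl hx hX hX1 hβ rfl hm hmn hn7 hT2 hK2le
  have hprod := prod_ge hX0 hX1 hQ
  have hfin : X * (1 - H326.St.Mx n β X T ε) ≤ X / 2 := by linarith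
  by_contra hcon
  push Not at hcon
  have : X * (1 / 2) < X * (1 - H326.St.Mx n β X T ε) :=
    mul_lt_mul_of_pos_left (by linarith) hX0
  linarith

end Vale.Agent.P146.H673
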